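import Vale.Agent.P216.H250.Pi0
import Vale.Agent.P216.H311.PathSp

/-!
# Path spaces are connected up to a bounded loss (P216, Theorem B, block PI0): the space `P a b t`
-/

open Set Filter Topology
open scoped BoundedContinuousFunction unitInterval

namespace Vale.Agent.P216.H250

open LS

variable {M : Type} [MetricSpace M] {a b : M} {t : ℝ}

theorem mem_PF_of_mem_P {w : ℝ →ᵇ M} (h : w ∈ PS.P a b t) : (w : ℝ → M) ∈ PF a b t := h

theorem mo_mem_P [CompactSpace M] {f : ℝ → M} (h : f ∈ PF a b t) : PS.mo f ∈ PS.P a b t :=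
  PS.mo_mem h.1 h.2.1 h.2.2

/-- From the pointwise topology to the sup metric. -/
theorem joinedIn_P [CompactSpace M] (ht : 0 ≤ t) {w w' : ℝ →ᵇ M}
    (h : JoinedIn (PF a b t) (w : ℝ → M) w') : JoinedIn (PS.P a b t) w w' := by
  obtain ⟨γ, hγ⟩ := h
  have hc : Continuous fun s => PS.mo (γ s) := by
    rw [← continuousOn_univ]
    refine PS.continuousOn_of_eval ht (fun s _ => PS.P_subset_PP (mo_mem_P (hγ s))) fun u => ?_
    refine ContinuousOn.congr (f := fun s => γ s u) ?_ fun s _ => PS.Lip.mo_apply (hγ s).1 u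
    exact ((continuous_apply u).comp γ.continuous).continuousOn
  refine ⟨⟨⟨fun s => PS.mo (γ s), hc⟩, ?_, ?_⟩, fun s => mo_mem_P (hγ s)⟩
  · show PS.mo (γ 0) = w
    rw [γ.source]
    exact PS.mo_self w
  · show PS.mo (γ 1) = w'
    rw [γ.target]
    exact PS.mo_self w'

/-- **PI0.**  Any two paths of `P a b s` are joined in `P a b (s + D)`; `P a b D` is nonempty. -/
theorem pi0 [CompactSpace M] [SimplyConnectedSpace M] {ρ : ℝ} (hρ : 0 < ρ) (h : UniqSeg M ρ) :
    ∃ D, 0 ≤ D ∧ (∀ a b : M, (PS.P a b D).Nonempty) ∧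
      ∀ (a b : M) (s : ℝ), 0 ≤ s → ∀ w ∈ PS.P a b s, ∀ w' ∈ PS.P a b s,
        JoinedIn (PS.P a b (s + D)) w w' := by
  obtain ⟨D, hD, hne, hj⟩ := exists_joinedIn hρ h
  refine ⟨D, hD, fun a b => ?_, fun a b s hs w hw w' hw' => ?_⟩
  · obtain ⟨f, hf⟩ := hne a b
    exact ⟨_, mo_mem_P hf⟩
  · exact joinedIn_P (by linarith) (hj a b s hs w hw w' hw')

end Vale.Agent.P216.H250
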