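import Vale.Agent.P216.H787.Fib
import Vale.Agent.P216.N929.Fib0
import Vale.Agent.P216.AS.Htpy

/-!
# Homotopy invariance for list cochains (P216, Theorem B, block SWAP)

Two maps which are close (`close_prim`), or joined by a uniformly continuous homotopy
(`exists_prim`), pull a cocycle on `e`-small lists back to cohomologous cochains on `δ`-small lists;
`δ` only depends on the homotopy and on `e`.  Consequences for the values on cycles.
-/

open Finsupp Set

namespace Vale.Agent.P216.H250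

open Vale.Agent.P216.Sl Vale.Agent.P216.N929

set_option linter.unusedSectionVars false

variable {k : Type} [Field k] {X Y : Type} {i0 i1 : X → Y} {f : List Y → k}

/-- The map on `X × {0, 1}`. -/
def Hm (i0 i1 : X → Y) (p : X × Bool) : Y := bif p.2 then i1 p.1 else i0 p.1

/-- The prism. -/
noncomputable def pr (i0 i1 : X → Y) (f : List Y → k) : List X → k :=
  N929.fib (single [false, true] 1) fun L => f (L.map (Hm i0 i1))

theorem nrm_pr (hf : Nrm f) : Nrm (pr i0 i1 f) := Sl.Nrm.fib (hf.map _) _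

theorem bd_ft : bd (single [false, true] (1 : k)) = single [true] 1 - single [false] 1 := by
  rw [bd_single, one_smul, bdL_cons, bdL_cons, bdL_nil, map_zero, sub_zero, cons_single]

theorem dl_pr {m : ℕ} {l : List X} (hl : l.length = m + 1)
    (h : ∀ L : List Y, L.length = m + 2 → (∀ y ∈ L, ∃ x ∈ l, y = i0 x ∨ y = i1 x) → dl f L = 0) :
    dl (pr i0 i1 f) l = (-1) ^ (m + 1) * (f (l.map i1) - f (l.map i0)) := by
  have hne : l ≠ [] := by
    rintro rfl
    simp at hl
  have h2 : (single [false, true] (1 : k)) ∈ Sp k (Ln 2) :=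
    single_mem (P := Ln 2) (show [false, true].length = 2 from rfl) 1
  have h3 : (single [false, true] (1 : k)) ∈ Sp k (fun t => t = [false, true]) :=
    single_mem (P := fun t => t = [false, true]) rfl 1
  rw [pr, N929.dl_fib h2 _ hne, bd_ft, map_sub, map_sub, ev_sh_point _ hne, ev_sh_point _ hne, hl]
  have h4 : N929.fib (single [false, true] (1 : k)) (dl fun L => f (L.map (Hm i0 i1))) l = 0 := by
    refine fib_eq_zero h3 fun t ht l' hl' => ?_
    subst ht
    rw [N929.dl_map]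
    refine h _ ?_ fun y hy => ?_
    · rw [List.length_map]
      have := hl'.1
      simp only [List.length_cons, List.length_nil] at this
      omega
    · obtain ⟨p, hp, rfl⟩ := List.mem_map.1 hy
      refine ⟨p.1, (hl'.2 p hp).1, ?_⟩
      rcases p with ⟨x, b⟩
      cases b
      · exact Or.inl rfl
      · exact Or.inr rfl
  rw [h4, zero_add]
  simp only [List.map_map]
  rfl

variable [PseudoMetricSpace X] [PseudoMetricSpace Y] {A : Set X} {B : Set Y} {e δ : ℝ} {m : ℕ}

theorem dl_neg_one_pow_mul (n : ℕ) (g : List X → k) (l : List X) :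
    dl (fun l' => (-1) ^ n * g l') l = (-1) ^ n * dl g l := dl_smul_fun _ _ _

/-- **Close maps**: the difference of the two pull backs of a cocycle is a coboundary. -/
theorem close_prim (hm0 : MapsTo i0 A B) (hm1 : MapsTo i1 A B)
    (hcl : ∀ x ∈ A, ∀ y ∈ A, dist x y < δ →
      dist (i0 x) (i0 y) < e ∧ dist (i0 x) (i1 y) < e ∧ dist (i1 x) (i1 y) < e)
    (hf : Coc B e m f) {l : List X} (hl : l.length = m + 1) (hF : Fine A δ l) :
    dl (fun l' => (-1) ^ (m + 1) * pr i0 i1 f l') l = f (l.map i1) - f (l.map i0) := by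
  rw [dl_neg_one_pow_mul, dl_pr hl fun L hL hLe => hf L hL ⟨fun y hy => ?_, fun y hy z hz => ?_⟩]
  · rw [← mul_assoc, ← pow_add, ← two_mul]
    simp
  · obtain ⟨x, hx, rfl | rfl⟩ := hLe y hy
    · exact hm0 (hF.1 x hx)
    · exact hm1 (hF.1 x hx)
  · obtain ⟨x, hx, hx'⟩ := hLe y hy
    obtain ⟨x', hx₁, hx₁'⟩ := hLe z hz
    have h1 := hcl x (hF.1 x hx) x' (hF.1 x' hx₁) (hF.2 x hx x' hx₁)
    have h2 := hcl x' (hF.1 x' hx₁) x (hF.1 x hx) (hF.2 x' hx₁ x hx)
    rcases hx' with rfl | rfl <;> rcases hx₁' with rfl | rfl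
    · exact h1.1
    · exact h1.2.1
    · rw [dist_comm]; exact h2.2.1
    · exact h1.2.2

theorem nrm_smul (a : k) {g : List X → k} (hg : Nrm g) : Nrm fun l => a * g l :=
  fun l hl => by
    show a * g l = 0
    rw [hg l hl, mul_zero]

/-- **Homotopic maps**: the difference of the two pull backs of a cocycle is a coboundary. -/
theorem exists_prim {D : ℝ → X → Y} (hm : ∀ s ∈ Icc (0 : ℝ) 1, MapsTo (D s) A B)
    (huc : ∀ ε > 0, ∃ δ > 0, ∀ s ∈ Icc (0 : ℝ) 1, ∀ t ∈ Icc (0 : ℝ) 1, ∀ x ∈ A, ∀ y ∈ A,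
      |s - t| < δ → dist x y < δ → dist (D s x) (D t y) < ε) (he : 0 < e) :
    ∃ δ > 0, ∀ (k : Type) [Field k] (m : ℕ) (f : List Y → k), Coc B e m f →
      ∃ g : List X → k, (Nrm f → Nrm g) ∧ ∀ l : List X, l.length = m + 1 → Fine A δ l →
        f (l.map (D 1)) - f (l.map (D 0)) = dl g l := by
  obtain ⟨δ, hδ, h⟩ := huc e he
  refine ⟨δ, hδ, fun k _ m f hf => ?_⟩
  obtain ⟨N, hN⟩ := exists_nat_gt (1 / δ)
  have hN0 : (0 : ℝ) < N := lt_trans (by positivity) hN
  have hN' : 1 / (N : ℝ) < δ := by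
    rw [div_lt_iff₀ hN0]
    rw [div_lt_iff₀ hδ] at hN
    linarith [mul_comm (N : ℝ) δ]
  have hmem : ∀ i : ℕ, i ≤ N → (i : ℝ) / N ∈ Icc (0 : ℝ) 1 := fun i hi =>
    ⟨by positivity, by rw [div_le_one hN0]; exact_mod_cast hi⟩
  have ind : ∀ i : ℕ, i ≤ N → ∃ g : List X → k, (Nrm f → Nrm g) ∧ ∀ l : List X,
      l.length = m + 1 → Fine A δ l →
        f (l.map (D ((i : ℝ) / N))) - f (l.map (D 0)) = dl g l := by
    intro i
    induction i with
    | zero =>
      intro _
      refine ⟨fun _ => 0, fun _ _ _ => rfl, fun l _ _ => ?_⟩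
      rw [Nat.cast_zero, zero_div, sub_self, dl, ev_zero_fun]
    | succ i ih =>
      intro hi
      obtain ⟨g, hg, hgl⟩ := ih (by omega)
      refine ⟨fun l => g l + (-1) ^ (m + 1) * pr (D ((i : ℝ) / N)) (D (((i + 1 : ℕ) : ℝ) / N)) f l,
        fun hfn => ?_, fun l hl hF => ?_⟩
      · intro l hl
        show g l + (-1) ^ (m + 1) * pr (D ((i : ℝ) / N)) (D (((i + 1 : ℕ) : ℝ) / N)) f l = 0
        rw [hg hfn l hl, nrm_pr hfn l hl, mul_zero, add_zero]
      · have h1 := hmem i (by omega)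
        have h2 := hmem (i + 1) hi
        have h3 : |(i : ℝ) / N - ((i + 1 : ℕ) : ℝ) / N| < δ := by
          have : (i : ℝ) / N - ((i + 1 : ℕ) : ℝ) / N = -(1 / N) := by
            push_cast; field_simp; ring
          rw [this, abs_neg, abs_of_pos (by positivity)]
          exact hN'
        have h4 := close_prim (hm _ h1) (hm _ h2) (δ := δ) (fun x hx y hy hxy =>
          ⟨h _ h1 _ h1 x hx y hy (by simpa using hδ) hxy, h _ h1 _ h2 x hx y hy h3 hxy,
            h _ h2 _ h2 x hx y hy (by simpa using hδ) hxy⟩) hf hl hF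
        rw [dl_add_fun, ← hgl l hl hF, h4]
        ring
  obtain ⟨g, hg, hgl⟩ := ind N le_rfl
  rw [div_self hN0.ne'] at hgl
  exact ⟨g, hg, hgl⟩

/-- The same, for a homotopy of the library. -/
theorem exists_prim_of_isHtpy {I : Type} {α : I → X → X} {α' : I → Y → Y} {D : ℝ → X → Y}
    (h : AS.IsHtpy α α' A B D) (he : 0 < e) :
    ∃ δ > 0, ∀ (k : Type) [Field k] (m : ℕ) (f : List Y → k), Coc B e m f →
      ∃ g : List X → k, (Nrm f → Nrm g) ∧ ∀ l : List X, l.length = m + 1 → Fine A δ l →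
        f (l.map (D 1)) - f (l.map (D 0)) = dl g l :=
  exists_prim h.mapsX h.uc he

/-- Value on a cycle of a cochain which is a coboundary on its lists. -/
theorem ev_eq_zero_of_dl {Q : List X → Prop} {h g : List X → k} (hh : ∀ l, Q l → h l = dl g l)
    {z : Ch k X} (hz : z ∈ Sp k Q) (hb : bd z = 0) : ev h z = 0 := by
  rw [ev_congr hh hz, ev_dl, hb, map_zero]

/-- Close maps have the same values on cycles. -/
theorem ev_mp_close (hm0 : MapsTo i0 A B) (hm1 : MapsTo i1 A B)
    (hcl : ∀ x ∈ A, ∀ y ∈ A, dist x y < δ →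
      dist (i0 x) (i0 y) < e ∧ dist (i0 x) (i1 y) < e ∧ dist (i1 x) (i1 y) < e)
    (hf : Coc B e m f) {z : Ch k X} (hz : z ∈ Sp k fun l => l.length = m + 1 ∧ Fine A δ l)
    (hb : bd z = 0) : ev f (mp i1 z) = ev f (mp i0 z) := by
  have h := ev_eq_zero_of_dl (h := fun l => f (l.map i1) + (-1) * f (l.map i0))
    (fun l hl => by
      rw [close_prim hm0 hm1 hcl hf hl.1 hl.2]
      ring) hz hb
  rw [ev_add_fun, ev_smul_fun, ← ev_mp, ← ev_mp] at h
  linear_combination h

/-- Homotopic maps have the same values on cycles of small lists. -/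
theorem exists_ev_mp_homotopy {D : ℝ → X → Y} (hm : ∀ s ∈ Icc (0 : ℝ) 1, MapsTo (D s) A B)
    (huc : ∀ ε > 0, ∃ δ > 0, ∀ s ∈ Icc (0 : ℝ) 1, ∀ t ∈ Icc (0 : ℝ) 1, ∀ x ∈ A, ∀ y ∈ A,
      |s - t| < δ → dist x y < δ → dist (D s x) (D t y) < ε) (he : 0 < e) :
    ∃ δ > 0, ∀ (k : Type) [Field k] (m : ℕ) (f : List Y → k), Coc B e m f →
      ∀ z ∈ Sp k (fun l : List X => l.length = m + 1 ∧ Fine A δ l), bd z = 0 →
        ev f (mp (D 1) z) = ev f (mp (D 0) z) := by
  obtain ⟨δ, hδ, h⟩ := exists_prim hm huc he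
  refine ⟨δ, hδ, fun k _ m f hf z hz hb => ?_⟩
  obtain ⟨g, -, hg⟩ := h k m f hf
  have h := ev_eq_zero_of_dl (h := fun l => f (l.map (D 1)) + (-1) * f (l.map (D 0)))
    (fun l hl => by
      rw [← hg l hl.1 hl.2]
      ring) hz hb
  rw [ev_add_fun, ev_smul_fun, ← ev_mp, ← ev_mp] at h
  linear_combination h

end Vale.Agent.P216.H250
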