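import Vale.Agent.P216.H311.PathSp
import Vale.Agent.P216.AS.Htpy

/-!
# Moving end points (P216, Theorem B, block PATH)

`catR t v : w ↦ w * v` and `catL L v : w ↦ v * w` on the Moore-Lipschitz path spaces, with `v` a
fixed path of time `L`; composition with `v` and then with the reversed path `revB L v` is
homotopic to the inclusion `P a b t ⊆ P a b (t + 2 L)`.
-/

open Set Filter Topology BoundedContinuousFunction

namespace Vale.Agent.P216.H250

open PS

set_option linter.unusedSectionVars false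

variable {M : Type} [MetricSpace M] [CompactSpace M] {a b c : M} {t t' L : ℝ} {v w w' : ℝ →ᵇ M}

/-- `w ↦ w * v`. -/
noncomputable def catR (t : ℝ) (v w : ℝ →ᵇ M) : ℝ →ᵇ M := cat t w v

/-- `w ↦ v * w`. -/
noncomputable def catL (L : ℝ) (v w : ℝ →ᵇ M) : ℝ →ᵇ M := cat L v w

/-- The reversed path. -/
noncomputable def revB (L : ℝ) (v : ℝ →ᵇ M) : ℝ →ᵇ M := mo fun u => v (L - u)

theorem revB_apply (L : ℝ) (v : ℝ →ᵇ M) (u : ℝ) : revB L v u = v (L - u) :=
  mo_apply (f := fun u => v (L - u)) (v.continuous.comp (by fun_prop)) u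

theorem revB_mem (hv : v ∈ P a b L) : revB L v ∈ P b a L := by
  refine ⟨fun u s => ?_, fun u hu => ?_, fun u hu => ?_⟩
  · rw [revB_apply, revB_apply]
    refine (hv.1 _ _).trans_eq ?_
    rw [show L - u - (L - s) = -(u - s) by ring, abs_neg]
  · rw [revB_apply]; exact hv.2.2 _ (by linarith)
  · rw [revB_apply]; exact hv.2.1 _ (by linarith)

@[simp] theorem revB_revB (L : ℝ) (v : ℝ →ᵇ M) : revB L (revB L v) = v := by
  ext u
  rw [revB_apply, revB_apply, sub_sub_cancel]

theorem cat_apply' (hw : w ∈ P a b t) (hw' : w' ∈ P b c t') (u : ℝ) :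
    cat t w w' u = if u ≤ t then w u else w' (u - t) :=
  cat_apply hw.1 hw'.1 (by rw [eq_right hw le_rfl, eq_left hw' le_rfl]) u

theorem dist_catR_le (hv : v ∈ P b c L) (hw : w ∈ P a b t) (hw' : w' ∈ P a b t) :
    dist (catR t v w) (catR t v w') ≤ dist w w' := by
  have e : ∀ z ∈ P a b t, z t = v 0 := fun z hz => by
    rw [eq_right hz le_rfl, eq_left hv le_rfl]
  refine (dist_cat_cat_le hw.1 hw'.1 hv.1 hv.1 (e w hw) (e w' hw')).trans ?_
  rw [dist_self, max_eq_left dist_nonneg]

theorem dist_catL_le (hv : v ∈ P a b L) (hw : w ∈ P b c t) (hw' : w' ∈ P b c t) :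
    dist (catL L v w) (catL L v w') ≤ dist w w' := by
  have e : ∀ z ∈ P b c t, v L = z 0 := fun z hz => by
    rw [eq_right hv le_rfl, eq_left hz le_rfl]
  refine (dist_cat_cat_le hv.1 hv.1 hw.1 hw'.1 (e w hw) (e w' hw')).trans ?_
  rw [dist_self, max_eq_right dist_nonneg]

section Maps

variable {I : Type} [IsEmpty I] (α α' : I → (ℝ →ᵇ M) → (ℝ →ᵇ M))

theorem isMap_catR (ht : 0 ≤ t) (hL : 0 ≤ L) (hv : v ∈ P b c L) :
    AS.IsMap α α' (P a b t) (P a c (t + L)) (catR t v) where
  mapsX := fun _ hw => cat_mem ht hL hw hv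
  eqv := fun i => isEmptyElim i
  uc := fun ε hε => ⟨ε, hε, fun _ hx _ hy hxy => (dist_catR_le hv hx hy).trans_lt hxy⟩

theorem isMap_catL (ht : 0 ≤ t) (hL : 0 ≤ L) (hv : v ∈ P a b L) :
    AS.IsMap α α' (P b c t) (P a c (L + t)) (catL L v) where
  mapsX := fun _ hw => cat_mem hL ht hv hw
  eqv := fun i => isEmptyElim i
  uc := fun ε hε => ⟨ε, hε, fun _ hx _ hy hxy => (dist_catL_le hv hx hy).trans_lt hxy⟩

end Maps

/-! ### The spur -/

/-- `v` up to the time `s L`, and back. -/
noncomputable def spur (L : ℝ) (v : ℝ →ᵇ M) (s : ℝ) : ℝ →ᵇ M :=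
  mo fun u => v (min u (2 * s * L - u))

theorem spur_apply (L : ℝ) (v : ℝ →ᵇ M) (s u : ℝ) : spur L v s u = v (min u (2 * s * L - u)) :=
  mo_apply (f := fun u => v (min u (2 * s * L - u))) (v.continuous.comp (by fun_prop)) u

theorem spur_mem (hv : v ∈ P a b L) (s : ℝ) : spur L v s ∈ P a a (2 * s * L) := by
  refine ⟨fun u r => ?_, fun u hu => ?_, fun u hu => ?_⟩
  · rw [spur_apply, spur_apply]
    refine (hv.1 _ _).trans ?_
    rw [abs_le]
    constructor <;> rcases le_total u (2 * s * L - u) with h1 | h1 <;>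
      rcases le_total r (2 * s * L - r) with h2 | h2 <;>
      simp only [min_eq_left h1, min_eq_right h1, min_eq_left h2, min_eq_right h2] <;>
      rcases abs_cases (u - r) with ⟨h3, h4⟩ | ⟨h3, h4⟩ <;> rw [h3] <;> linarith
  · rw [spur_apply]; exact hv.2.1 _ ((min_le_left _ _).trans hu)
  · rw [spur_apply]; exact hv.2.1 _ ((min_le_right _ _).trans (by linarith))

theorem spur_mem' (hL : 0 ≤ L) (hv : v ∈ P a b L) {s : ℝ} (hs : s ∈ Icc (0 : ℝ) 1) :
    spur L v s ∈ P a a (L + L) :=
  P_mono (by nlinarith [hs.2]) (spur_mem hv s)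

theorem continuousOn_spur (hL : 0 ≤ L) (hv : v ∈ P a b L) {T : Type} [TopologicalSpace T]
    {S : Set T} {f : T → ℝ} (hf : ContinuousOn f S) (hfI : ∀ x ∈ S, f x ∈ Icc (0 : ℝ) 1) :
    ContinuousOn (fun x => spur L v (f x)) S := by
  refine continuousOn_of_eval (t := L + L) (by positivity)
    (fun x hx => P_subset_PP (spur_mem' hL hv (hfI x hx))) fun u => ?_
  simp only [spur_apply]
  refine v.continuous.comp_continuousOn ?_
  exact continuousOn_const.inf (((continuousOn_const.mul hf).mul continuousOn_const).sub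
    continuousOn_const)

theorem spur_zero_apply (hv : v ∈ P a b L) (u : ℝ) : spur L v 0 u = a := by
  rw [spur_apply]
  refine hv.2.1 _ ?_
  rcases le_total u 0 with h | h
  · exact (min_le_left _ _).trans h
  · exact (min_le_right _ _).trans (by linarith)

theorem spur_one (hL : 0 ≤ L) (hv : v ∈ P a b L) : spur L v 1 = cat L v (revB L v) := by
  ext u
  rw [spur_apply, cat_apply' hv (revB_mem hv)]
  split_ifs with h
  · rw [min_eq_left (by linarith)]
  · rw [min_eq_right (by linarith), revB_apply]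
    congr 1
    ring

/-! ### The two homotopies -/

theorem homR_mem (ht : 0 ≤ t) (hL : 0 ≤ L) (hv : v ∈ P b c L) {s : ℝ} (hs : s ∈ Icc (0 : ℝ) 1)
    (hw : w ∈ P a b t) : cat t w (spur L v s) ∈ P a b (t + (L + L)) :=
  cat_mem ht (by positivity) hw (spur_mem' hL hv hs)

theorem cat_spur_zero (hv : v ∈ P b c L) (hw : w ∈ P a b t) :
    cat t w (spur L v 0) = w := by
  ext u
  rw [cat_apply' hw (spur_mem hv 0)]
  split_ifs with h
  · rfl
  · rw [spur_zero_apply hv, eq_right hw (not_le.1 h).le]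

theorem cat_spur_one (hL : 0 ≤ L) (hv : v ∈ P b c L) (hw : w ∈ P a b t) :
    cat t w (spur L v 1) = catR (t + L) (revB L v) (catR t v w) := by
  rw [spur_one hL hv]
  have h1 : cat L v (revB L v) ∈ P b b (L + L) := cat_mem hL hL hv (revB_mem hv)
  ext u
  rcases le_or_gt 0 t with ht | ht
  · have h2 : cat t w v ∈ P a c (t + L) := cat_mem ht hL hw hv
    rw [catR, catR, cat_apply' hw h1, cat_apply' h2 (revB_mem hv), cat_apply' hw hv]
    by_cases h3 : u ≤ t
    · rw [if_pos h3, if_pos (by linarith), if_pos h3]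
    · rw [if_neg h3, cat_apply' hv (revB_mem hv)]
      by_cases h4 : u - t ≤ L
      · rw [if_pos h4, if_pos (by linarith), if_neg h3]
      · rw [if_neg h4, if_neg (by linarith)]
        congr 1
        ring
  · -- here `a = b` and `w` is constant
    have hwt : ∀ u, w u = a := fun u => by
      rcases le_total u 0 with h | h
      · exact eq_left hw h
      · rw [eq_right hw (ht.le.trans h), ← eq_right hw (u := 0) ht.le]
        exact eq_left hw le_rfl
    have hab : a = b := by rw [← hwt 0, eq_right hw ht.le]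
    subst hab
    have hl : w t = v 0 := by rw [hwt, eq_left hv le_rfl]
    have h2 : ∀ u, cat t w v u = if u ≤ t then w u else v (u - t) := cat_apply hw.1 hv.1 hl
    have h3 : Lip (cat t w v) := fun x y => by
      rw [cat_apply hw.1 hv.1 hl, cat_apply hw.1 hv.1 hl]
      exact lip_catf hw.1 hv.1 hl x y
    have h4 : cat t w v (t + L) = c := by
      rw [h2]
      split_ifs with h5
      · have : L = 0 := by linarith
        rw [hwt, ← eq_left hv le_rfl, eq_right hv this.le]
      · rw [add_sub_cancel_left, eq_right hv le_rfl]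
    rw [catR, catR, cat_apply' hw h1, cat_apply h3 (revB_mem hv).1 (by
      rw [h4, eq_left (revB_mem hv) le_rfl]), catf, h2]
    by_cases h3 : u ≤ t
    · rw [if_pos h3, if_pos (by linarith), if_pos h3]
    · rw [if_neg h3, cat_apply' hv (revB_mem hv)]
      by_cases h4 : u - t ≤ L
      · rw [if_pos h4, if_pos (by linarith), if_neg h3]
      · rw [if_neg h4, if_neg (by linarith)]
        congr 1
        ring

theorem homL_mem (ht : 0 ≤ t) (hL : 0 ≤ L) (hv : v ∈ P a b L) {s : ℝ} (hs : s ∈ Icc (0 : ℝ) 1)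
    (hw : w ∈ P a c t) : cat (2 * s * L) (spur L v s) w ∈ P a c (L + (L + t)) := by
  have h0 : 0 ≤ 2 * s * L := by have := hs.1; positivity
  exact P_mono (by nlinarith [hs.2]) (cat_mem h0 ht (spur_mem hv s) hw)

theorem spur_cat_zero (hv : v ∈ P a b L) (hw : w ∈ P a c t) :
    cat (2 * 0 * L) (spur L v 0) w = w := by
  ext u
  rw [cat_apply' (spur_mem hv 0) hw]
  split_ifs with h
  · rw [spur_zero_apply hv, eq_left hw (by linarith)]
  · congr 1
    ring

theorem spur_cat_one (hL : 0 ≤ L) (ht : 0 ≤ t) (hv : v ∈ P a b L) (hw : w ∈ P a c t) :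
    cat (2 * 1 * L) (spur L v 1) w = catL L v (catL L (revB L v) w) := by
  have h1 : cat L v (revB L v) ∈ P a a (L + L) := cat_mem hL hL hv (revB_mem hv)
  have h2 : cat L (revB L v) w ∈ P b c (L + t) := cat_mem hL ht (revB_mem hv) hw
  rw [spur_one hL hv, show 2 * 1 * L = L + L by ring]
  ext u
  rw [catL, catL, cat_apply' h1 hw, cat_apply' hv h2]
  by_cases h3 : u ≤ L
  · rw [if_pos h3, if_pos (by linarith), cat_apply' hv (revB_mem hv), if_pos h3]
  · rw [if_neg h3, cat_apply' (revB_mem hv) hw, cat_apply' hv (revB_mem hv), if_neg h3]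
    by_cases h4 : u - L ≤ L
    · rw [if_pos h4, if_pos (by linarith)]
    · rw [if_neg h4, if_neg (by linarith)]
      congr 1
      ring

section Htpy

variable {I : Type} [IsEmpty I] (α α' : I → (ℝ →ᵇ M) → (ℝ →ᵇ M))

theorem isHtpy_catR (ht : 0 ≤ t) (hL : 0 ≤ L) (hv : v ∈ P b c L) :
    AS.IsHtpy α α' (P a b t) (P a b (t + (L + L))) (fun s w => cat t w (spur L v s)) := by
  refine AS.IsHtpy.of_continuousOn (isCompact_P a b t) ?_
    (fun s hs w hw => homR_mem ht hL hv hs hw) fun s _ i => isEmptyElim i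
  refine continuousOn_cat (T := ℝ × (ℝ →ᵇ M)) (s := fun _ => t) (t := t + (L + L))
    (by positivity) continuousOn_snd
    (continuousOn_spur hL hv continuousOn_fst fun x hx => hx.1) continuousOn_const
    (fun x hx => hx.2.1) (fun x hx => (spur_mem hv x.1).1) (fun x hx => ?_)
    fun x hx => P_subset_PP (homR_mem ht hL hv hx.1 hx.2)
  rw [eq_right hx.2 le_rfl, eq_left (spur_mem hv x.1) le_rfl]

theorem isHtpy_catL (ht : 0 ≤ t) (hL : 0 ≤ L) (hv : v ∈ P a b L) :
    AS.IsHtpy α α' (P a c t) (P a c (L + (L + t)))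
      (fun s w => cat (2 * s * L) (spur L v s) w) := by
  refine AS.IsHtpy.of_continuousOn (isCompact_P a c t) ?_
    (fun s hs w hw => homL_mem ht hL hv hs hw) fun s _ i => isEmptyElim i
  refine continuousOn_cat (T := ℝ × (ℝ →ᵇ M)) (s := fun x => 2 * x.1 * L) (t := L + (L + t))
    (by positivity) (continuousOn_spur hL hv continuousOn_fst fun x hx => hx.1) continuousOn_snd
    (by fun_prop) (fun x hx => (spur_mem hv x.1).1) (fun x hx => hx.2.1) (fun x hx => ?_)
    fun x hx => P_subset_PP (homL_mem ht hL hv hx.1 hx.2)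
  rw [eq_right (spur_mem hv x.1) le_rfl, eq_left hx.2 le_rfl]

end Htpy

/-! ### Cohomology -/

section Coh

open AS

variable {k : Type} [Field k] {I : Type} [IsEmpty I] {α : I → (ℝ →ᵇ M) → (ℝ →ᵇ M)} {χ : I → k}

/-- Composition on the right with `v` and then with the reverse of `v` is the inclusion. -/
theorem pull_catR_revB (ht : 0 ≤ t) (hL : 0 ≤ L) (hv : v ∈ P b c L) {n : ℕ}
    (x : Ha α χ (P a b (t + L + L)) n) :
    pull χ (isMap_catR (a := a) α α ht hL hv) n
      (pull χ (isMap_catR (a := a) α α (by positivity : 0 ≤ t + L) hL (revB_mem hv)) n x) =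
      res (P_mono (by linarith)) n x := by
  have e : t + L + L = t + (L + L) := by ring
  have h := isHtpy_catR (a := a) α α ht hL hv
  rw [← e] at h
  have h1 := pull_homotopy (χ := χ) h n
  have h2 := (isMap_catR (a := a) α α (by positivity : 0 ≤ t + L) hL (revB_mem hv)).comp
    (isMap_catR (a := a) α α ht hL hv)
  rw [← pull_comp, pull_congr h2 h.one fun w hw => (cat_spur_one hL hv hw).symm, h1,
    pull_eq_res (P_mono (by linarith)) h.zero fun w hw => cat_spur_zero hv hw]

/-- Composition on the left with the reverse of `v` and then with `v` is the inclusion. -/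
theorem pull_catL_revB (ht : 0 ≤ t) (hL : 0 ≤ L) (hv : v ∈ P a b L) {n : ℕ}
    (x : Ha α χ (P a c (L + (L + t))) n) :
    pull χ (isMap_catL (c := c) α α ht hL (revB_mem hv)) n
      (pull χ (isMap_catL (c := c) α α (by positivity : 0 ≤ L + t) hL hv) n x) =
      res (P_mono (by linarith)) n x := by
  have h := isHtpy_catL (c := c) α α ht hL hv
  have h1 := pull_homotopy (χ := χ) h n
  have h2 := (isMap_catL (c := c) α α (by positivity : 0 ≤ L + t) hL hv).comp
    (isMap_catL (c := c) α α ht hL (revB_mem hv))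
  rw [← pull_comp, pull_congr h2 h.one fun w hw => (spur_cat_one hL ht hv hw).symm, h1,
    pull_eq_res (P_mono (by linarith)) h.zero fun w hw => spur_cat_zero hv hw]

/-- Composition on the left commutes with the inclusions. -/
theorem pull_catL_res (ht : 0 ≤ t) (htt : t ≤ t') (hL : 0 ≤ L) (hv : v ∈ P a b L) {n : ℕ}
    (x : Ha α χ (P a c (L + t')) n) :
    res (P_mono htt) n (pull χ (isMap_catL (c := c) α α (ht.trans htt) hL hv) n x) =
      pull χ (isMap_catL (c := c) α α ht hL hv) n (res (P_mono (by linarith)) n x) := by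
  obtain ⟨c, hc, rfl⟩ := H.exists_mk x
  rfl

/-- Waiting. -/
theorem isHtpy_wait (ht : 0 ≤ t) (htt : t ≤ t') (hL : 0 ≤ L) (hv : v ∈ P b c L)
    (α α' : I → (ℝ →ᵇ M) → (ℝ →ᵇ M)) :
    AS.IsHtpy α α' (P a b t) (P a c (t' + L)) (fun s w => cat (t + s * (t' - t)) w v) := by
  have hm : ∀ s ∈ Icc (0 : ℝ) 1, ∀ w ∈ P a b t,
      w ∈ P a b (t + s * (t' - t)) ∧ 0 ≤ t + s * (t' - t) ∧ t + s * (t' - t) ≤ t' := by
    intro s hs w hw
    have h1 : 0 ≤ s * (t' - t) := mul_nonneg hs.1 (by linarith)
    exact ⟨P_mono (by linarith) hw, by linarith, by nlinarith [hs.2]⟩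
  have hm' : ∀ s ∈ Icc (0 : ℝ) 1, ∀ w ∈ P a b t,
      cat (t + s * (t' - t)) w v ∈ P a c (t' + L) := by
    intro s hs w hw
    obtain ⟨h1, h2, h3⟩ := hm s hs w hw
    exact P_mono (by linarith) (cat_mem h2 hL h1 hv)
  refine AS.IsHtpy.of_continuousOn (isCompact_P a b t) ?_
    (fun s hs w hw => hm' s hs w hw) fun s _ i => isEmptyElim i
  refine continuousOn_cat (T := ℝ × (ℝ →ᵇ M)) (s := fun x => t + x.1 * (t' - t)) (t := t' + L)
    (by linarith) continuousOn_snd continuousOn_const (by fun_prop)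
    (fun x hx => hx.2.1) (fun x hx => hv.1) (fun x hx => ?_)
    fun x hx => P_subset_PP (hm' x.1 hx.1 x.2 hx.2)
  rw [eq_right (hm x.1 hx.1 x.2 hx.2).1 le_rfl, eq_left hv le_rfl]

/-- Composition on the right commutes with the inclusions. -/
theorem pull_catR_res (ht : 0 ≤ t) (htt : t ≤ t') (hL : 0 ≤ L) (hv : v ∈ P b c L) {n : ℕ}
    (x : Ha α χ (P a c (t' + L)) n) :
    res (P_mono htt) n (pull χ (isMap_catR (a := a) α α (ht.trans htt) hL hv) n x) =
      pull χ (isMap_catR (a := a) α α ht hL hv) n (res (P_mono (by linarith)) n x) := by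
  have h := isHtpy_wait (a := a) ht htt hL hv α α
  have h1 := pull_homotopy (χ := χ) h n
  have e0 : pull χ h.zero n x =
      pull χ (isMap_catR (a := a) α α ht hL hv) n (res (P_mono (by linarith)) n x) := by
    have h2 : AS.IsMap α α (P a b t) (P a c (t' + L)) (catR t v) :=
      (AS.IsMap.id_of_subset (P_mono (by linarith))).comp (isMap_catR (a := a) α α ht hL hv)
    rw [pull_congr h.zero h2 fun w _ => by simp [catR]]
    obtain ⟨c, hc, rfl⟩ := H.exists_mk x
    rfl
  have e1 : pull χ h.one n x =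
      res (P_mono htt) n (pull χ (isMap_catR (a := a) α α (ht.trans htt) hL hv) n x) := by
    have h2 : AS.IsMap α α (P a b t) (P a c (t' + L)) (catR t' v) :=
      (isMap_catR (a := a) α α (ht.trans htt) hL hv).comp
        (AS.IsMap.id_of_subset (P_mono htt))
    rw [pull_congr h.one h2 fun w _ => by simp [catR]]
    obtain ⟨c, hc, rfl⟩ := H.exists_mk x
    rfl
  rw [← e0, ← e1, h1]

end Coh

end Vale.Agent.P216.H250
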