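import Vale.Agent.P216.LS.Seg
import Mathlib.Topology.ContinuousMap.Bounded.Basic
import Mathlib.AlgebraicTopology.FundamentalGroupoid.SimplyConnected
import Mathlib.Topology.Connected.PathConnected

/-!
# Path spaces in the Moore-Lipschitz model: functions, pointwise topology (P216, Theorem B)

`PF a b t` = the 1-Lipschitz functions `ℝ → M` equal to `a` on `(-∞, 0]` and to `b` on `[t, ∞)`.
Everything about `JoinedIn` is done for the pointwise topology; `Pi0.lean` transfers it to
`ℝ →ᵇ M`.
-/

open Set Filter Topology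

namespace Vale.Agent.P216.H250

open LS

set_option linter.unusedSectionVars false

variable {M : Type} [MetricSpace M]

/-- The 1-Lipschitz functions, `a` on `(-∞, 0]` and `b` on `[t, ∞)`. -/
def PF (a b : M) (t : ℝ) : Set (ℝ → M) :=
  {w | (∀ u v, dist (w u) (w v) ≤ |u - v|) ∧ (∀ u ≤ 0, w u = a) ∧ ∀ u, t ≤ u → w u = b}

variable {a b c : M} {s t t' t₁ : ℝ} {w w' w'' : ℝ → M} {ρ : ℝ}

theorem PF.mono (h : t ≤ t') : PF a b t ⊆ PF a b t' :=
  fun _ hw => ⟨hw.1, hw.2.1, fun u hu => hw.2.2 u (h.trans hu)⟩

theorem PF.cont (hw : w ∈ PF a b t) : Continuous w :=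
  (LipschitzWith.of_dist_le_mul (K := 1) fun u v => by simpa [Real.dist_eq] using hw.1 u v).continuous

theorem PF.zero (hw : w ∈ PF a b t) : w 0 = a := hw.2.1 0 le_rfl

theorem PF.last (hw : w ∈ PF a b t) : w t = b := hw.2.2 t le_rfl

theorem lip_of_le {f : ℝ → M} (h : ∀ u v, u ≤ v → dist (f u) (f v) ≤ v - u) (u v : ℝ) :
    dist (f u) (f v) ≤ |u - v| := by
  rcases le_total u v with h1 | h1
  · exact (h u v h1).trans (by rw [abs_sub_comm]; exact le_abs_self _)
  · rw [dist_comm]
    exact (h v u h1).trans (le_abs_self _)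

theorem PF.le_of_le (hw : w ∈ PF a b t) {u v : ℝ} (h : u ≤ v) : dist (w u) (w v) ≤ v - u := by
  refine (hw.1 u v).trans_eq ?_
  rw [abs_sub_comm, abs_of_nonneg (by linarith)]

theorem const_mem (a : M) (t : ℝ) : (fun _ => a) ∈ PF a a t :=
  ⟨fun u v => by simp, fun _ _ => rfl, fun _ _ => rfl⟩

/-- Concatenation at the time `t`. -/
noncomputable def cat (t : ℝ) (w w' : ℝ → M) (u : ℝ) : M := if u ≤ t then w u else w' (u - t)

theorem cat_of_le {u : ℝ} (h : u ≤ t) : cat t w w' u = w u := if_pos h

theorem cat_of_lt {u : ℝ} (h : t < u) : cat t w w' u = w' (u - t) := if_neg (not_le.2 h)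

theorem cat_mem (ht : 0 ≤ t) (ht' : 0 ≤ t') (hw : w ∈ PF a b t) (hw' : w' ∈ PF b c t') :
    cat t w w' ∈ PF a c (t + t') := by
  refine ⟨lip_of_le fun u v huv => ?_, fun u hu => ?_, fun u hu => ?_⟩
  · rcases le_or_gt v t with h1 | h1
    · rw [cat_of_le h1, cat_of_le (huv.trans h1)]
      exact PF.le_of_le hw huv
    · rcases le_or_gt u t with h2 | h2
      · rw [cat_of_lt h1, cat_of_le h2]
        have h3 : dist (w u) b ≤ t - u := by
          have := PF.le_of_le hw h2
          rwa [PF.last hw] at this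
        have h4 : dist b (w' (v - t)) ≤ v - t - 0 := by
          have := PF.le_of_le hw' (u := 0) (v := v - t) (by linarith)
          rwa [PF.zero hw'] at this
        linarith [dist_triangle (w u) b (w' (v - t))]
      · rw [cat_of_lt h1, cat_of_lt h2]
        exact (PF.le_of_le hw' (by linarith)).trans_eq (by ring)
  · rw [cat_of_le (hu.trans ht)]
    exact hw.2.1 u hu
  · rcases le_or_gt u t with h2 | h2
    · have h3 : u = t := by linarith
      have h4 : t' = 0 := by linarith
      rw [cat_of_le h2, h3, PF.last hw, ← PF.zero hw']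
      exact hw'.2.2 0 h4.le
    · rw [cat_of_lt h2]
      exact hw'.2.2 _ (by linarith)

theorem continuous_cat_left (t : ℝ) (w' : ℝ → M) : Continuous fun w => cat t w w' := by
  refine continuous_pi fun u => ?_
  unfold cat
  split_ifs
  · exact continuous_apply u
  · exact continuous_const

theorem continuous_cat_right (t : ℝ) (w : ℝ → M) : Continuous fun w' => cat t w w' := by
  refine continuous_pi fun u => ?_
  unfold cat
  split_ifs
  · exact continuous_const
  · exact continuous_apply (u - t)

theorem joinedIn_map {X Y : Type} [TopologicalSpace X] [TopologicalSpace Y] {F : Set X}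
    {G : Set Y} {x y : X} {f : X → Y} (h : JoinedIn F x y) (hf : ContinuousOn f F)
    (hm : MapsTo f F G) : JoinedIn G (f x) (f y) := by
  obtain ⟨γ, hγ⟩ := h
  refine ⟨⟨⟨fun s => f (γ s), hf.comp_continuous γ.continuous hγ⟩, by simp, by simp⟩, fun s => ?_⟩
  exact hm (hγ s)

theorem JI.cat_left (ht : 0 ≤ t) (ht' : 0 ≤ t') (h : JoinedIn (PF a b t) w w')
    (hw : w'' ∈ PF b c t') : JoinedIn (PF a c (t + t')) (cat t w w'') (cat t w' w'') :=
  joinedIn_map (f := fun w => cat t w w'') h (continuous_cat_left t w'').continuousOn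
    fun _ hx => cat_mem ht ht' hx hw

theorem JI.cat_right (ht : 0 ≤ t) (ht' : 0 ≤ t') (hw : w'' ∈ PF a b t)
    (h : JoinedIn (PF b c t') w w') : JoinedIn (PF a c (t + t')) (cat t w'' w) (cat t w'' w') :=
  joinedIn_map (f := fun w => cat t w'' w) h (continuous_cat_right t w'').continuousOn
    fun _ hx => cat_mem ht ht' hw hx

/-- A family of paths, continuous in the parameter pointwise. -/
theorem JI.of_family {H : ℝ → ℝ → M} {t : ℝ} (h1 : ∀ s ∈ Icc (0 : ℝ) 1, H s ∈ PF a b t)
    (h2 : ∀ u, ContinuousOn (fun s => H s u) (Icc 0 1)) : JoinedIn (PF a b t) (H 0) (H 1) :=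
  JoinedIn.ofLine (f := H) (continuousOn_pi.2 h2) rfl rfl (image_subset_iff.2 h1)

/-- Waiting between two paths. -/
theorem JI.wait (ht : 0 ≤ t) (h : t ≤ t₁) (ht' : 0 ≤ t') (hw : w ∈ PF a b t)
    (hw' : w' ∈ PF b c t') : JoinedIn (PF a c (t₁ + t')) (cat t w w') (cat t₁ w w') := by
  have key := JI.of_family (a := a) (b := c) (t := t₁ + t')
    (H := fun s => cat (t + s * (t₁ - t)) w w') ?_ ?_
  · simpa using key
  · intro s hs
    have h1 : 0 ≤ s * (t₁ - t) := mul_nonneg hs.1 (by linarith)
    have h2 : s * (t₁ - t) ≤ t₁ - t := mul_le_of_le_one_left (by linarith) hs.2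
    exact PF.mono (by linarith) (cat_mem (by linarith) ht' (PF.mono (by linarith) hw) hw')
  · intro u
    rcases le_or_gt u t with hu | hu
    · refine ContinuousOn.congr (f := fun _ => w u) continuousOn_const fun s hs => ?_
      exact cat_of_le (hu.trans (by nlinarith [hs.1, hs.2]))
    · refine ContinuousOn.congr (f := fun s => w' (u - (t + s * (t₁ - t)))) ?_ fun s hs => ?_
      · exact ((PF.cont hw').comp (by fun_prop)).continuousOn
      · simp only
        rcases le_or_gt u (t + s * (t₁ - t)) with h1 | h1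
        · rw [cat_of_le h1, hw.2.2 u hu.le, hw'.2.1 _ (by linarith)]
        · rw [cat_of_lt h1]

theorem cat_assoc (ht' : 0 ≤ t') : cat (t + t') (cat t w w') w'' = cat t w (cat t' w' w'') := by
  funext u
  rcases le_or_gt u t with h1 | h1
  · rw [cat_of_le (by linarith), cat_of_le h1, cat_of_le h1]
  · rcases le_or_gt u (t + t') with h2 | h2
    · rw [cat_of_le h2, cat_of_lt h1, cat_of_lt h1, cat_of_le (by linarith)]
    · rw [cat_of_lt h2, cat_of_lt h1, cat_of_lt (by linarith)]
      congr 1
      ring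

theorem cat_const (hw : w ∈ PF a b t) : cat 0 (fun _ => a) w = w := by
  funext u
  rcases le_or_gt u 0 with h1 | h1
  · rw [cat_of_le h1, hw.2.1 u h1]
  · rw [cat_of_lt h1, sub_zero]

/-- The reversed path. -/
def rev (t : ℝ) (w : ℝ → M) (u : ℝ) : M := w (t - u)

theorem rev_mem (hw : w ∈ PF a b t) : rev t w ∈ PF b a t := by
  refine ⟨fun u v => (hw.1 _ _).trans_eq ?_, fun u hu => hw.2.2 _ (by linarith),
    fun u hu => hw.2.1 _ (by linarith)⟩
  rw [show t - u - (t - v) = -(u - v) by ring, abs_neg]

/-- A path followed by its reverse is contractible. -/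
theorem JI.spur (ht : 0 ≤ t) (hw : w ∈ PF a b t) :
    JoinedIn (PF b b (t + t)) (fun _ => b) (cat t (rev t w) w) := by
  have hv := rev_mem hw
  have key := JI.of_family (a := b) (b := b) (t := t + t)
    (H := fun s u => rev t w (min u (2 * s * t - u))) ?_ ?_
  · convert key using 1
    · funext u
      refine (hv.2.1 _ ?_).symm
      rcases le_total u 0 with h | h
      · exact (min_le_left _ _).trans h
      · exact (min_le_right _ _).trans (by linarith)
    · funext u
      rcases le_or_gt u t with h | h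
      · rw [cat_of_le h, min_eq_left (by linarith)]
      · rw [cat_of_lt h, min_eq_right (by linarith), rev]
        congr 1
        ring
  · intro s hs
    have h1 : s * t ≤ t := mul_le_of_le_one_left ht hs.2
    refine ⟨fun u v => (hv.1 _ _).trans ?_, fun u hu => hv.2.1 _ ((min_le_left _ _).trans hu),
      fun u hu => hv.2.1 _ ((min_le_right _ _).trans (by linarith))⟩
    rw [abs_le]
    constructor <;> rcases le_total u (2 * s * t - u) with h1 | h1 <;>
      rcases le_total v (2 * s * t - v) with h2 | h2 <;>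
      simp only [min_eq_left h1, min_eq_right h1, min_eq_left h2, min_eq_right h2] <;>
      rcases abs_cases (u - v) with ⟨h3, h4⟩ | ⟨h3, h4⟩ <;> rw [h3] <;> linarith
  · intro u
    exact ((PF.cont hv).comp (by fun_prop)).continuousOn

/-- The part before the time `t`. -/
def hd (t : ℝ) (w : ℝ → M) (u : ℝ) : M := w (min u t)

/-- The part after the time `t`. -/
def tl (t : ℝ) (w : ℝ → M) (u : ℝ) : M := w (t + max u 0)

theorem hd_mem (ht : 0 ≤ t) (hw : w ∈ PF a b t') : hd t w ∈ PF a (w t) t := by
  refine ⟨lip_of_le fun u v huv => ?_, fun u hu => ?_, fun u hu => ?_⟩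
  · refine (PF.le_of_le hw (min_le_min_right t huv)).trans ?_
    rcases le_total u t with h1 | h1 <;> rcases le_total v t with h2 | h2 <;>
      simp only [min_eq_left, min_eq_right, h1, h2] <;> linarith
  · exact hw.2.1 _ ((min_le_left _ _).trans hu)
  · show w (min u t) = w t
    rw [min_eq_right hu]

theorem tl_mem {r : ℝ} (h0 : 0 ≤ r) (h : t' ≤ t + r) (hw : w ∈ PF a b t') :
    tl t w ∈ PF (w t) b r := by
  refine ⟨lip_of_le fun u v huv => ?_, fun u hu => ?_, fun u hu => ?_⟩
  · refine (PF.le_of_le hw (by gcongr)).trans ?_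
    rcases le_total u 0 with h1 | h1 <;> rcases le_total v 0 with h2 | h2 <;>
      simp only [max_eq_left, max_eq_right, h1, h2] <;> linarith
  · show w (t + max u 0) = w t
    rw [max_eq_right hu, add_zero]
  · refine hw.2.2 _ ?_
    rw [max_eq_left (h0.trans hu)]
    linarith

theorem cat_hd_tl : cat t (hd t w) (tl t w) = w := by
  funext u
  rcases le_or_gt u t with h1 | h1
  · rw [cat_of_le h1, hd, min_eq_left h1]
  · rw [cat_of_lt h1, tl, max_eq_left (by linarith)]
    congr 1
    ring

theorem tl_tl (ht : 0 ≤ t) : tl t (tl t' w) = tl (t' + t) w := by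
  funext u
  simp only [tl]
  rw [max_eq_left (a := t + max u 0) (by positivity), add_assoc]

theorem tl_zero (hw : w ∈ PF a b t) : tl 0 w = w := by
  funext u
  simp only [tl, zero_add]
  rcases le_total u 0 with h | h
  · rw [max_eq_right h, PF.zero hw, hw.2.1 u h]
  · rw [max_eq_left h]

theorem tl_last (h : t' ≤ t) (hw : w ∈ PF a b t') : tl t w = fun _ => b := by
  funext u
  exact hw.2.2 _ (by linarith [le_max_right u 0])

/-- Slowing down. -/
theorem JI.slow (ht : 0 ≤ t) (h : t ≤ t₁) (h0 : 0 < t₁) (hw : w ∈ PF a b t) :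
    JoinedIn (PF a b t₁) w (fun u => w (u * (t / t₁))) := by
  have hq0 : 0 ≤ t / t₁ := by positivity
  have hq1 : t / t₁ ≤ 1 := (div_le_one h0).2 h
  have key := JI.of_family (a := a) (b := b) (t := t₁)
    (H := fun s u => w (u * (1 + s * (t / t₁ - 1)))) ?_ ?_
  · convert key using 1
    · funext u; simp
    · funext u; simp
  · intro s hs
    have e1 : 0 ≤ s * (1 - t / t₁) := mul_nonneg hs.1 (by linarith)
    have e2 : s * (1 - t / t₁) ≤ 1 - t / t₁ := mul_le_of_le_one_left (by linarith) hs.2
    have e3 : t / t₁ ≤ 1 + s * (t / t₁ - 1) := by nlinarith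
    have e4 : 1 + s * (t / t₁ - 1) ≤ 1 := by nlinarith
    have e5 : 0 ≤ 1 + s * (t / t₁ - 1) := by linarith
    refine ⟨fun u v => (hw.1 _ _).trans ?_, fun u hu => ?_, fun u hu => ?_⟩
    · rw [← sub_mul, abs_mul, abs_of_nonneg e5]
      exact mul_le_of_le_one_right (abs_nonneg _) e4
    · exact hw.2.1 _ (mul_nonpos_of_nonpos_of_nonneg hu e5)
    · refine hw.2.2 _ ?_
      calc t = t₁ * (t / t₁) := by field_simp
        _ ≤ u * (1 + s * (t / t₁ - 1)) := mul_le_mul hu e3 hq0 (by linarith)
  · intro u
    exact ((PF.cont hw).comp (by fun_prop)).continuousOn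

/-! ### Short segments -/

/-- The short segment from `x` to `y` in the time `r`. -/
noncomputable def sg (x y : M) (r : ℝ) (u : ℝ) : M := seg x y (max 0 (min 1 (u / r)))

theorem clamp_mem (x : ℝ) : max 0 (min 1 x) ∈ Icc (0 : ℝ) 1 :=
  ⟨le_max_left _ _, max_le zero_le_one (min_le_left _ _)⟩

theorem clamp_lip (x y : ℝ) : |max 0 (min 1 x) - max 0 (min 1 y)| ≤ |x - y| := by
  refine (abs_max_sub_max_le_max _ _ _ _).trans ?_
  simp only [sub_self, abs_zero]
  refine max_le (abs_nonneg _) ((abs_min_sub_min_le_max _ _ _ _).trans ?_)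
  simp

variable {x y : M} {r : ℝ}

theorem sg_mem (h : UniqSeg M ρ) (hρ : dist x y < ρ) (hr : dist x y ≤ r) :
    sg x y r ∈ PF x y r := by
  rcases (dist_nonneg.trans hr).eq_or_lt with h0 | h0
  · have h1 : x = y := dist_le_zero.1 (hr.trans h0.ge)
    subst h1
    refine ⟨fun u v => ?_, fun u _ => ?_, fun u _ => ?_⟩ <;> simp [sg]
  · refine ⟨fun u v => ?_, fun u hu => ?_, fun u hu => ?_⟩
    · rw [sg, sg, dist_seg_seg h hρ (clamp_mem _) (clamp_mem _)]
      calc |max 0 (min 1 (u / r)) - max 0 (min 1 (v / r))| * dist x y ≤ |u / r - v / r| * r :=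
            mul_le_mul (clamp_lip _ _) hr dist_nonneg (abs_nonneg _)
        _ = |u - v| := by
            rw [← sub_div, abs_div, abs_of_pos h0]
            field_simp
    · rw [sg, max_eq_left ((min_le_right _ _).trans (div_nonpos_of_nonpos_of_nonneg hu h0.le)),
        seg_zero]
    · rw [sg, min_eq_left ((one_le_div h0).2 hu), max_eq_right zero_le_one, seg_one]

theorem PF.dist_le (hw : w ∈ PF a b t) (ht : 0 ≤ t) (v : ℝ) : dist a (w v) ≤ t := by
  rcases le_total v 0 with h | h
  · rw [hw.2.1 v h, dist_self]; exact ht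
  · rcases le_total t v with h1 | h1
    · rw [hw.2.2 v h1, ← PF.zero hw, ← PF.last hw]
      simpa using PF.le_of_le hw ht
    · rw [← PF.zero hw]
      exact (PF.le_of_le hw h).trans (by linarith)

/-- All paths of time `< ρ` are joined to the short segment. -/
theorem JI.small [CompactSpace M] (h : UniqSeg M ρ) (ht : 0 ≤ t) (htρ : t < ρ)
    (hw : w ∈ PF x y t) : JoinedIn (PF x y t) w (sg x y t) := by
  have hd0 : ∀ v, dist x (w v) < ρ := fun v => (PF.dist_le hw ht v).trans_lt htρ
  have key := JI.of_family (a := x) (b := y) (t := t)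
    (H := fun s => cat (s * t) (sg x (w (s * t)) (s * t)) (tl (s * t) w)) ?_ ?_
  · convert key using 1
    · have e : sg x (w (0 * t)) (0 * t) = fun _ => x := by
        funext u
        rw [zero_mul, PF.zero hw, sg, seg_self]
      rw [e, zero_mul, tl_zero hw, cat_const hw]
    · rw [one_mul]
      funext u
      rcases le_or_gt u t with h1 | h1
      · rw [cat_of_le h1, PF.last hw]
      · rw [cat_of_lt h1, tl, hw.2.2 _ (by linarith [le_max_right (u - t) 0])]
        have h2 : dist x y ≤ t := by
          have := PF.dist_le hw ht t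
          rwa [PF.last hw] at this
        exact (sg_mem h (h2.trans_lt htρ) h2).2.2 u h1.le
  · intro s hs
    have h1 : 0 ≤ s * t := mul_nonneg hs.1 ht
    have h2 : s * t ≤ t := mul_le_of_le_one_left ht hs.2
    have h3 : dist x (w (s * t)) ≤ s * t := by
      have := PF.le_of_le hw h1
      rwa [PF.zero hw, sub_zero] at this
    have := cat_mem h1 (t' := t - s * t) (by linarith) (sg_mem h (hd0 _) h3)
      (tl_mem (by linarith) (by linarith) hw)
    rwa [show s * t + (t - s * t) = t by ring] at this
  · intro u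
    rcases le_or_gt u 0 with hu | hu
    · refine ContinuousOn.congr (f := fun _ => x) continuousOn_const fun s hs => ?_
      have h1 : 0 ≤ s * t := mul_nonneg hs.1 ht
      simp only
      rw [cat_of_le (hu.trans h1), sg,
        max_eq_left ((min_le_right _ _).trans (div_nonpos_of_nonpos_of_nonneg hu h1)), seg_zero]
    · refine ContinuousOn.congr (f := fun s => seg x (w (max (s * t) u)) (u / max (s * t) u))
        ?_ fun s hs => ?_
      · have hm : ∀ s : ℝ, 0 < max (s * t) u := fun s => lt_max_of_lt_right hu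
        refine ContinuousOn.seg h continuousOn_const ((PF.cont hw).comp (by fun_prop)).continuousOn
          ?_ (fun s _ => hd0 _) fun s _ => ⟨(div_pos hu (hm s)).le, ?_⟩
        · exact (continuous_const.div (by fun_prop) fun s => (hm s).ne').continuousOn
        · exact (div_le_one (hm s)).2 (le_max_right _ _)
      · simp only
        rcases le_or_gt u (s * t) with h1 | h1
        · rw [cat_of_le h1, max_eq_left h1, sg]
          have h2 : 0 < s * t := hu.trans_le h1
          rw [min_eq_right ((div_le_one h2).2 h1), max_eq_right (div_pos hu h2).le]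
        · rw [cat_of_lt h1, max_eq_right h1.le, div_self hu.ne', seg_one, tl,
            max_eq_left (by linarith)]
          congr 1
          ring

theorem JI.small' [CompactSpace M] (h : UniqSeg M ρ) (ht : 0 ≤ t) (htρ : t < ρ)
    (hw : w ∈ PF x y t) (hw' : w' ∈ PF x y t) : JoinedIn (PF x y t) w w' :=
  (JI.small h ht htρ hw).trans (JI.small h ht htρ hw').symm

/-- Paths with the same vertices. -/
theorem JI.vertices [CompactSpace M] (h : UniqSeg M ρ) (hr0 : 0 < r) (hr : r < ρ) (n : ℕ) :
    ∀ (a b : M) (w w' : ℝ → M), w ∈ PF a b (n * r) → w' ∈ PF a b (n * r) →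
      (∀ i : ℕ, i ≤ n → w (i * r) = w' (i * r)) → JoinedIn (PF a b (n * r)) w w' := by
  induction n with
  | zero =>
    intro a b w w' hw hw' _
    have : w = w' := by
      funext u
      rcases le_total u 0 with h1 | h1
      · rw [hw.2.1 u h1, hw'.2.1 u h1]
      · rw [hw.2.2 u (by simpa using h1), hw'.2.2 u (by simpa using h1)]
    subst this
    exact JoinedIn.refl hw
  | succ n ih =>
    intro a b w w' hw hw' hv
    have e : ((n + 1 : ℕ) : ℝ) * r = r + n * r := by push_cast; ring
    rw [e] at hw hw' ⊢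
    have hn : (0 : ℝ) ≤ n * r := by positivity
    have h1 : w r = w' r := by simpa using hv 1 (by omega)
    have h2 := hd_mem hr0.le hw
    have h2' := hd_mem hr0.le hw'
    rw [← h1] at h2'
    have h3 := tl_mem hn (le_refl (r + n * r)) hw
    have h3' := tl_mem hn (le_refl (r + n * r)) hw'
    rw [← h1] at h3'
    have j1 := JI.small' h hr0.le hr h2 h2'
    have j2 := ih (w r) b (tl r w) (tl r w') h3 h3' fun i hi => by
      have := hv (i + 1) (by omega)
      have e2 : ((i + 1 : ℕ) : ℝ) * r = r + max (i * r) 0 := by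
        rw [max_eq_left (by positivity)]; push_cast; ring
      rw [e2] at this
      exact this
    have j3 := (JI.cat_left hr0.le hn j1 h3).trans (JI.cat_right hr0.le hn h2' j2)
    rwa [cat_hd_tl, cat_hd_tl] at j3

/-! ### Polygons -/

/-- The polygon with vertices `x 0, …, x n`, each edge in the time `r`. -/
noncomputable def pol (r : ℝ) : ℕ → (ℕ → M) → ℝ → M
  | 0, x => fun _ => x 0
  | n + 1, x => cat r (sg (x 0) (x 1) r) (pol r n fun i => x (i + 1))

theorem pol_mem (h : UniqSeg M ρ) (hr0 : 0 ≤ r) (hr : r < ρ) (n : ℕ) : ∀ x : ℕ → M,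
    (∀ i < n, dist (x i) (x (i + 1)) ≤ r) → pol r n x ∈ PF (x 0) (x n) (n * r) := by
  induction n with
  | zero => intro x _; exact const_mem _ _
  | succ n ih =>
    intro x hx
    have e : ((n + 1 : ℕ) : ℝ) * r = r + n * r := by push_cast; ring
    rw [e]
    have h1 := hx 0 (by omega)
    exact cat_mem hr0 (by positivity) (sg_mem h (h1.trans_lt hr) h1)
      (ih (fun i => x (i + 1)) fun i hi => hx (i + 1) (by omega))

theorem pol_vertex (h : UniqSeg M ρ) (hr0 : 0 < r) (hr : r < ρ) (n : ℕ) : ∀ x : ℕ → M,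
    (∀ i < n, dist (x i) (x (i + 1)) ≤ r) → ∀ i : ℕ, i ≤ n → pol r n x (i * r) = x i := by
  induction n with
  | zero =>
    intro x _ i hi
    rw [Nat.le_zero.1 hi]; rfl
  | succ n ih =>
    intro x hx i hi
    have h1 := hx 0 (by omega)
    have hs := sg_mem h (h1.trans_lt hr) h1
    rcases i with _ | _ | i
    · rw [pol, cat_of_le (by simpa using hr0.le)]
      exact hs.2.1 _ (by simp)
    · rw [pol, cat_of_le (by simp)]
      exact hs.2.2 _ (by simp)
    · have e : ((i + 2 : ℕ) : ℝ) * r = r + ((i + 1 : ℕ) : ℝ) * r := by push_cast; ring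
      have h2 : 0 < ((i + 1 : ℕ) : ℝ) * r := by positivity
      rw [pol, cat_of_lt (by rw [e]; linarith), e, add_sub_cancel_left]
      exact ih (fun i => x (i + 1)) (fun j hj => hx (j + 1) (by omega)) (i + 1) (by omega)

theorem continuousOn_pol [CompactSpace M] (h : UniqSeg M ρ) {T : Type} [TopologicalSpace T]
    {S : Set T} (n : ℕ) : ∀ x : T → ℕ → M, (∀ i ≤ n, ContinuousOn (fun z => x z i) S) →
    (∀ z ∈ S, ∀ i < n, dist (x z i) (x z (i + 1)) < ρ) →
    ∀ u, ContinuousOn (fun z => pol r n (x z) u) S := by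
  induction n with
  | zero => intro x hx _ u; exact hx 0 le_rfl
  | succ n ih =>
    intro x hx hd u
    simp only [pol, cat]
    split_ifs
    · exact ContinuousOn.seg h (hx 0 (by omega)) (hx 1 (by omega)) continuousOn_const
        (fun z hz => hd z hz 0 (by omega)) fun z _ => clamp_mem _
    · exact ih (fun z i => x z (i + 1)) (fun i hi => hx (i + 1) (by omega))
        (fun z hz i hi => hd z hz (i + 1) (by omega)) _

end Vale.Agent.P216.H250
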