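import Vale.Agent.P216.H250.PathFun

/-!
# Path spaces are connected up to a bounded loss (P216, Theorem B, block PI0)

`pi0`: `∃ D ≥ 0`, any two elements of `P a b s` are joined in `P a b (s + D)` (all `a b s`).
`exists_path`: `∃ D ≥ 0, ∀ a b, (P a b D).Nonempty`.
-/

open Set Filter Topology
open scoped BoundedContinuousFunction unitInterval

namespace Vale.Agent.P216.H250

open LS

set_option linter.unusedSectionVars false

variable {M : Type} [MetricSpace M] {a b c : M} {s t t' t₁ : ℝ} {w w' w'' : ℝ → M} {ρ : ℝ}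

/-- A continuous family on the square has short steps. -/
theorem exists_steps [CompactSpace M] (F : C(I × I, M)) {ε : ℝ} (hε : 0 < ε) (m : ℕ) :
    ∃ n : ℕ, m ≤ n ∧ 0 < n ∧ ∀ (s : I) (i : ℕ), i < n →
      dist (F (s, projIcc 0 1 zero_le_one ((i : ℝ) / n)))
        (F (s, projIcc 0 1 zero_le_one (((i + 1 : ℕ) : ℝ) / n))) < ε := by
  have hu := CompactSpace.uniformContinuous_of_continuous F.continuous
  obtain ⟨δ, hδ, h⟩ := Metric.uniformContinuous_iff.1 hu ε hε
  obtain ⟨n, hn⟩ := exists_nat_gt (1 / δ)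
  refine ⟨max m (n + 1), le_max_left _ _, by positivity, fun s i hi => h ?_⟩
  set N : ℕ := max m (n + 1) with hN
  have hN0 : (0 : ℝ) < N := by
    have : n + 1 ≤ N := le_max_right _ _
    have : (0 : ℕ) < N := by omega
    exact_mod_cast this
  have hnN : (n : ℝ) ≤ N := by
    have : n + 1 ≤ N := le_max_right _ _
    exact_mod_cast (by omega : n ≤ N)
  rw [Prod.dist_eq, dist_self, max_lt_iff]
  refine ⟨hδ, ?_⟩
  have h1 : |(projIcc (0 : ℝ) 1 zero_le_one ((i : ℝ) / N) : ℝ) -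
      projIcc (0 : ℝ) 1 zero_le_one (((i + 1 : ℕ) : ℝ) / N)| ≤
      |(i : ℝ) / N - ((i + 1 : ℕ) : ℝ) / N| := by
    rw [coe_projIcc, coe_projIcc]
    exact clamp_lip _ _
  rw [Subtype.dist_eq, Real.dist_eq]
  refine h1.trans_lt ?_
  rw [← sub_div, abs_div, abs_of_pos hN0]
  push_cast
  rw [show (i : ℝ) - (i + 1) = -1 by ring, abs_neg, abs_one, div_lt_iff₀ hN0]
  have h2 : 1 < δ * n := by rwa [div_lt_iff₀' hδ] at hn
  nlinarith

theorem pI_zero {n : ℕ} : projIcc (0 : ℝ) 1 zero_le_one ((0 : ℕ) / (n : ℝ)) = 0 := by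
  apply Subtype.ext
  rw [coe_projIcc]
  simp

theorem pI_one {n : ℕ} (hn : 0 < n) : projIcc (0 : ℝ) 1 zero_le_one ((n : ℕ) / (n : ℝ)) = 1 := by
  have : (n : ℝ) ≠ 0 := by positivity
  apply Subtype.ext
  rw [coe_projIcc, div_self this]
  simp

/-- Two points are joined by some path. -/
theorem exists_one [CompactSpace M] [PathConnectedSpace M] (hρ : 0 < ρ) (h : UniqSeg M ρ)
    (a b : M) : ∃ t, 0 ≤ t ∧ (PF a b t).Nonempty := by
  let γ : Path a b := PathConnectedSpace.somePath a b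
  obtain ⟨n, -, hn, hs⟩ := exists_steps (⟨fun p => γ p.2, by fun_prop⟩ : C(I × I, M))
    (half_pos hρ) 0
  have key := pol_mem (r := ρ / 2) h (by positivity) (by linarith) n
    (fun i => γ (projIcc 0 1 zero_le_one ((i : ℝ) / n))) fun i hi => (hs 0 i hi).le
  simp only [pI_zero, pI_one hn, γ.source, γ.target] at key
  exact ⟨n * (ρ / 2), by positivity, _, key⟩

/-- Simple connectivity, without uniformity. -/
theorem exists_joined [CompactSpace M] [SimplyConnectedSpace M] (hρ : 0 < ρ) (h : UniqSeg M ρ)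
    (ht : 0 ≤ t) (hw : w ∈ PF a b t) (hw' : w' ∈ PF a b t) :
    ∃ T, t ≤ T ∧ JoinedIn (PF a b T) w w' := by
  let γ : Path a b := ⟨⟨fun s => w (s * t), (PF.cont hw).comp (by fun_prop)⟩,
    by simp [PF.zero hw], by simp [PF.last hw]⟩
  let γ' : Path a b := ⟨⟨fun s => w' (s * t), (PF.cont hw').comp (by fun_prop)⟩,
    by simp [PF.zero hw'], by simp [PF.last hw']⟩
  obtain ⟨F⟩ := SimplyConnectedSpace.paths_homotopic γ γ'
  set r := ρ / 2 with hr
  have hr0 : 0 < r := half_pos hρ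
  obtain ⟨m, hm⟩ := exists_nat_ge (t / r)
  obtain ⟨n, hmn, hn, hs⟩ := exists_steps F.toContinuousMap hr0 m
  have hn0 : (0 : ℝ) < n := by exact_mod_cast hn
  have htn : t ≤ n * r := by
    rw [div_le_iff₀ hr0] at hm
    have : (m : ℝ) ≤ n := by exact_mod_cast hmn
    nlinarith
  have hT0 : 0 < n * r := by positivity
  let x : I → ℕ → M := fun s i => F (s, projIcc 0 1 zero_le_one ((i : ℝ) / n))
  have hx0 : ∀ s, x s 0 = a := fun s => by
    show F (s, projIcc 0 1 zero_le_one (((0 : ℕ) : ℝ) / n)) = a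
    rw [pI_zero]
    simp
  have hxn : ∀ s, x s n = b := fun s => by
    show F (s, projIcc 0 1 zero_le_one (((n : ℕ) : ℝ) / n)) = b
    rw [pI_one hn]
    simp
  have hxd : ∀ s, ∀ i < n, dist (x s i) (x s (i + 1)) < r := fun s i hi => hs s i hi
  have hpm : ∀ s, pol r n (x s) ∈ PF a b (n * r) := fun s => by
    have := pol_mem h hr0.le (by linarith) n (x s) fun i hi => (hxd s i hi).le
    rwa [hx0, hxn] at this
  have hc : ∀ u, Continuous fun s => pol r n (x s) u := fun u => by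
    rw [← continuousOn_univ]
    refine continuousOn_pol h n x (fun i _ => ?_) (fun z _ i hi => (hxd z i hi).trans (by linarith)) u
    exact (F.continuous.comp (by fun_prop)).continuousOn
  have j1 : JoinedIn (PF a b (n * r)) (pol r n (x 0)) (pol r n (x 1)) :=
    ⟨⟨⟨fun s => pol r n (x s), continuous_pi hc⟩, rfl, rfl⟩, hpm⟩
  have aux : ∀ (v : ℝ → M) (hv : v ∈ PF a b t) (z : I)
      (hz : ∀ q : I, F (z, q) = v (q * t)), JoinedIn (PF a b (n * r)) v (pol r n (x z)) := by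
    intro v hv z hz
    refine (JI.slow ht htn hT0 hv).trans ?_
    refine JI.vertices h hr0 (by linarith) n a b _ _ (JI.slow ht htn hT0 hv).target_mem (hpm z)
      fun i hi => ?_
    rw [pol_vertex h hr0 (by linarith) n (x z) (fun i hi => (hxd z i hi).le) i hi]
    show _ = F (z, projIcc 0 1 zero_le_one ((i : ℝ) / n))
    rw [hz, coe_projIcc]
    have hin : (i : ℝ) ≤ n := by exact_mod_cast hi
    have h1 : (i : ℝ) / n ≤ 1 := (div_le_one hn0).2 hin
    rw [min_eq_right h1, max_eq_right (by positivity)]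
    congr 1
    field_simp
  exact ⟨n * r, htn, ((aux w hw 0 fun q => F.apply_zero q).trans j1).trans
    (aux w' hw' 1 fun q => F.apply_one q).symm⟩

/-- Sliding: every path is joined, up to a bounded loss, to a path which only depends on the
end points. -/
theorem exists_slide [CompactSpace M] [SimplyConnectedSpace M] (hρ : 0 < ρ) (h : UniqSeg M ρ) :
    ∃ (D T : ℝ) (o : M) (q : M → ℝ → M), 0 ≤ D ∧ 0 ≤ T ∧ (∀ x, q x ∈ PF o x T) ∧
      ∀ (a b : M) (s : ℝ), 0 ≤ s → ∀ w ∈ PF a b s,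
        JoinedIn (PF o b (D + s)) (cat T (q a) w) (q b) := by
  obtain ⟨o⟩ : Nonempty M := inferInstance
  set δ := ρ / 5 with hδ
  have hδ0 : 0 < δ := by positivity
  obtain ⟨Y, -, hYf, hY⟩ := finite_cover_balls_of_compact (X := M) isCompact_univ hδ0
  have hnr : ∀ x : M, ∃ y ∈ Y, dist y x ≤ δ := fun x => by
    obtain ⟨y, hy, hx⟩ := mem_iUnion₂.1 (hY (mem_univ x))
    exact ⟨y, hy, by rw [dist_comm]; exact (Metric.mem_ball.1 hx).le⟩
  choose nr hnrY hnrd using hnr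
  choose τ hτ0 hτ using fun y => exists_one hρ h o y
  choose p₀ hp₀ using hτ
  obtain ⟨T0, hT0⟩ : ∃ T0, 0 ≤ T0 ∧ ∀ y ∈ Y, τ y ≤ T0 := by
    obtain ⟨B, hB⟩ := (hYf.image τ).bddAbove
    exact ⟨max B 0, le_max_right _ _, fun y hy => (hB (mem_image_of_mem τ hy)).trans (le_max_left _ _)⟩
  obtain ⟨hT00, hT0⟩ := hT0
  have hp : ∀ y ∈ Y, p₀ y ∈ PF o y T0 := fun y hy => PF.mono (hT0 y hy) (hp₀ y)
  -- near pairs of the net
  have hpair : ∀ z : M × M, ∃ T, T0 + 3 * δ ≤ T ∧ (z ∈ Y ×ˢ Y → dist z.1 z.2 ≤ 3 * δ →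
      JoinedIn (PF o z.2 T) (cat T0 (p₀ z.1) (sg z.1 z.2 (3 * δ))) (p₀ z.2)) := by
    intro z
    by_cases hz : z ∈ Y ×ˢ Y ∧ dist z.1 z.2 ≤ 3 * δ
    · obtain ⟨T, hT, hj⟩ := exists_joined hρ h (t := T0 + 3 * δ) (by positivity)
        (cat_mem hT00 (by positivity) (hp _ hz.1.1) (sg_mem h (by linarith [hz.2]) hz.2))
        (PF.mono (by linarith) (hp _ hz.1.2))
      exact ⟨T, hT, fun _ _ => hj⟩
    · exact ⟨T0 + 3 * δ, le_rfl, fun h1 h2 => absurd ⟨h1, h2⟩ hz⟩
  choose τ₂ hτ₂ hpair using hpair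
  obtain ⟨T1, hT10, hT1⟩ : ∃ T1, T0 + 3 * δ ≤ T1 ∧ ∀ z ∈ Y ×ˢ Y, τ₂ z ≤ T1 := by
    obtain ⟨B, hB⟩ := ((hYf.prod hYf).image τ₂).bddAbove
    exact ⟨max B (T0 + 3 * δ), le_max_right _ _,
      fun y hy => (hB (mem_image_of_mem τ₂ hy)).trans (le_max_left _ _)⟩
  have hpair' : ∀ y ∈ Y, ∀ y' ∈ Y, dist y y' ≤ 3 * δ →
      JoinedIn (PF o y' T1) (cat T0 (p₀ y) (sg y y' (3 * δ))) (p₀ y') := fun y hy y' hy' hd =>
    (hpair (y, y') ⟨hy, hy'⟩ hd).mono (PF.mono (hT1 (y, y') ⟨hy, hy'⟩))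
  have hsg : ∀ x, sg (nr x) x δ ∈ PF (nr x) x δ := fun x =>
    sg_mem h ((hnrd x).trans_lt (by linarith)) (hnrd x)
  have hpn : ∀ x, p₀ (nr x) ∈ PF o (nr x) T0 := fun x => hp _ (hnrY x)
  set q : M → ℝ → M := fun x => cat T0 (p₀ (nr x)) (sg (nr x) x δ) with hq
  have hqm : ∀ x, q x ∈ PF o x (T0 + δ) := fun x => cat_mem hT00 hδ0.le (hpn x) (hsg x)
  refine ⟨T1 + 4 * δ, T0 + δ, o, q, by linarith, by linarith, hqm, ?_⟩
  intro a b s hs w hw
  -- one step
  have step : ∀ (x : M) (v : ℝ → M), v ∈ PF x b s →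
      JoinedIn (PF o b (T1 + 4 * δ + s)) (cat (T0 + δ) (q x) v)
        (cat (T0 + δ) (q (v δ)) (tl δ v)) := by
    intro x v hv
    set x' := v δ with hx'
    have hv1 : hd δ v ∈ PF x x' δ := hd_mem hδ0.le hv
    have hv2 : tl δ v ∈ PF x' b s := tl_mem hs (by linarith) hv
    have hxx : dist x x' ≤ δ := by
      have := PF.le_of_le hv hδ0.le
      rwa [PF.zero hv, sub_zero] at this
    have hyy : dist (nr x) (nr x') ≤ 3 * δ := by
      have h1 := hnrd x
      have h2 := hnrd x'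
      rw [dist_comm] at h2
      linarith [dist_triangle4 (nr x) x x' (nr x')]
    have hyy' : sg (nr x) (nr x') (3 * δ) ∈ PF (nr x) (nr x') (3 * δ) :=
      sg_mem h (hyy.trans_lt (by linarith)) hyy
    -- the two short paths from `nr x` to `x'`
    have m1 : cat δ (sg (nr x) x δ) (hd δ v) ∈ PF (nr x) x' (δ + δ) :=
      cat_mem hδ0.le hδ0.le (hsg x) hv1
    have m2 : cat (3 * δ) (sg (nr x) (nr x') (3 * δ)) (sg (nr x') x' δ) ∈
        PF (nr x) x' (3 * δ + δ) := cat_mem (by positivity) hδ0.le hyy' (hsg x')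
    have j1 : JoinedIn (PF (nr x) x' (3 * δ + δ)) (cat δ (sg (nr x) x δ) (hd δ v))
        (cat (3 * δ) (sg (nr x) (nr x') (3 * δ)) (sg (nr x') x' δ)) :=
      JI.small' h (by positivity) (by linarith) (PF.mono (by linarith) m1) m2
    -- rewrite the left end
    have e1 : cat (T0 + δ) (q x) v =
        cat T0 (p₀ (nr x)) (cat (δ + δ) (cat δ (sg (nr x) x δ) (hd δ v)) (tl δ v)) := by
      rw [hq, cat_assoc hδ0.le, cat_assoc hδ0.le, cat_hd_tl]
    have j2 : JoinedIn (PF o b (T0 + (3 * δ + δ + s)))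
        (cat T0 (p₀ (nr x)) (cat (δ + δ) (cat δ (sg (nr x) x δ) (hd δ v)) (tl δ v)))
        (cat T0 (p₀ (nr x)) (cat (3 * δ + δ) (cat δ (sg (nr x) x δ) (hd δ v)) (tl δ v))) :=
      JI.cat_right hT00 (by positivity) (hpn x)
        (JI.wait (by positivity) (by linarith) hs m1 hv2)
    have j3 : JoinedIn (PF o b (T0 + (3 * δ + δ + s)))
        (cat T0 (p₀ (nr x)) (cat (3 * δ + δ) (cat δ (sg (nr x) x δ) (hd δ v)) (tl δ v)))
        (cat T0 (p₀ (nr x)) (cat (3 * δ + δ)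
          (cat (3 * δ) (sg (nr x) (nr x') (3 * δ)) (sg (nr x') x' δ)) (tl δ v))) :=
      JI.cat_right hT00 (by positivity) (hpn x) (JI.cat_left (by positivity) hs j1 hv2)
    have e2 : cat T0 (p₀ (nr x)) (cat (3 * δ + δ)
          (cat (3 * δ) (sg (nr x) (nr x') (3 * δ)) (sg (nr x') x' δ)) (tl δ v)) =
        cat (T0 + 3 * δ) (cat T0 (p₀ (nr x)) (sg (nr x) (nr x') (3 * δ)))
          (cat δ (sg (nr x') x' δ) (tl δ v)) := by
      rw [cat_assoc hδ0.le, cat_assoc (by positivity)]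
    have m3 : cat δ (sg (nr x') x' δ) (tl δ v) ∈ PF (nr x') b (δ + s) :=
      cat_mem hδ0.le hs (hsg x') hv2
    have m4 : cat T0 (p₀ (nr x)) (sg (nr x) (nr x') (3 * δ)) ∈ PF o (nr x') (T0 + 3 * δ) :=
      cat_mem hT00 (by positivity) (hpn x) hyy'
    have j4 : JoinedIn (PF o b (T1 + (δ + s)))
        (cat (T0 + 3 * δ) (cat T0 (p₀ (nr x)) (sg (nr x) (nr x') (3 * δ)))
          (cat δ (sg (nr x') x' δ) (tl δ v)))
        (cat T1 (cat T0 (p₀ (nr x)) (sg (nr x) (nr x') (3 * δ)))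
          (cat δ (sg (nr x') x' δ) (tl δ v))) :=
      JI.wait (by positivity) hT10 (by positivity) m4 m3
    have j5 : JoinedIn (PF o b (T1 + (δ + s)))
        (cat T1 (cat T0 (p₀ (nr x)) (sg (nr x) (nr x') (3 * δ)))
          (cat δ (sg (nr x') x' δ) (tl δ v)))
        (cat T1 (p₀ (nr x')) (cat δ (sg (nr x') x' δ) (tl δ v))) :=
      JI.cat_left (by linarith) (by positivity) (hpair' _ (hnrY x) _ (hnrY x') hyy) m3
    have j6 : JoinedIn (PF o b (T1 + (δ + s)))
        (cat T0 (p₀ (nr x')) (cat δ (sg (nr x') x' δ) (tl δ v)))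
        (cat T1 (p₀ (nr x')) (cat δ (sg (nr x') x' δ) (tl δ v))) :=
      JI.wait hT00 (by linarith) (by positivity) (hpn x') m3
    have e3 : cat T0 (p₀ (nr x')) (cat δ (sg (nr x') x' δ) (tl δ v)) =
        cat (T0 + δ) (q x') (tl δ v) := by rw [hq, cat_assoc hδ0.le]
    rw [e1, ← e3]
    have l1 : PF o b (T0 + (3 * δ + δ + s)) ⊆ PF o b (T1 + 4 * δ + s) := PF.mono (by linarith)
    have l2 : PF o b (T1 + (δ + s)) ⊆ PF o b (T1 + 4 * δ + s) := PF.mono (by linarith)
    rw [e2] at j3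
    exact ((((j2.mono l1).trans (j3.mono l1)).trans (j4.mono l2)).trans (j5.mono l2)).trans
      (j6.mono l2).symm
  -- induction
  have ind : ∀ n : ℕ, JoinedIn (PF o b (T1 + 4 * δ + s)) (cat (T0 + δ) (q a) w)
      (cat (T0 + δ) (q (w (n * δ))) (tl (n * δ) w)) := by
    intro n
    induction n with
    | zero =>
      have e : cat (T0 + δ) (q (w ((0 : ℕ) * δ))) (tl ((0 : ℕ) * δ) w) = cat (T0 + δ) (q a) w := by
        rw [Nat.cast_zero, zero_mul, PF.zero hw, tl_zero hw]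
      rw [e]
      exact JoinedIn.refl (PF.mono (by linarith) (cat_mem (by positivity) hs (hqm a) hw))
    | succ n ih =>
      have hn : (0 : ℝ) ≤ n * δ := by positivity
      have h1 := step (w (n * δ)) (tl (n * δ) w) (tl_mem hs (by linarith) hw)
      have e1 : tl (n * δ) w δ = w ((n + 1 : ℕ) * δ) := by
        rw [tl, max_eq_left hδ0.le]
        congr 1
        push_cast
        ring
      have e2 : tl δ (tl (n * δ) w) = tl ((n + 1 : ℕ) * δ) w := by
        rw [tl_tl hδ0.le]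
        congr 1
        push_cast
        ring
      rw [e1, e2] at h1
      exact ih.trans h1
  obtain ⟨n, hn⟩ := exists_nat_ge (s / δ)
  rw [div_le_iff₀ hδ0] at hn
  have h1 := ind n
  rw [hw.2.2 _ hn, tl_last hn hw] at h1
  have e4 : cat (T0 + δ) (q b) (fun _ => b) = q b := by
    funext u
    rcases le_or_gt u (T0 + δ) with h2 | h2
    · rw [cat_of_le h2]
    · rw [cat_of_lt h2, (hqm b).2.2 u h2.le]
  rwa [e4] at h1

/-- **PI0** in the pointwise topology. -/
theorem exists_joinedIn [CompactSpace M] [SimplyConnectedSpace M] (hρ : 0 < ρ)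
    (h : UniqSeg M ρ) : ∃ D, 0 ≤ D ∧ (∀ a b : M, (PF a b D).Nonempty) ∧
      ∀ (a b : M) (s : ℝ), 0 ≤ s → ∀ w ∈ PF a b s, ∀ w' ∈ PF a b s,
        JoinedIn (PF a b (s + D)) w w' := by
  obtain ⟨D, T, o, q, hD, hT, hq, hj⟩ := exists_slide hρ h
  refine ⟨T + (T + D), by linarith, fun a b => ?_, ?_⟩
  · exact ⟨cat T (rev T (q a)) (q b), PF.mono (by linarith)
      (cat_mem hT hT (rev_mem (hq a)) (hq b))⟩
  have key : ∀ (a b : M) (s : ℝ), 0 ≤ s → ∀ w ∈ PF a b s,
      JoinedIn (PF a b (s + (T + (T + D)))) w (cat T (rev T (q a)) (q b)) := by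
    intro a b s hs w hw
    have j1 : JoinedIn (PF a b (T + T + s)) (cat 0 (fun _ => a) w)
        (cat (T + T) (fun _ => a) w) :=
      JI.wait le_rfl (by positivity) hs (const_mem a 0) hw
    rw [cat_const hw] at j1
    have j2 : JoinedIn (PF a b (T + T + s)) (cat (T + T) (fun _ => a) w)
        (cat (T + T) (cat T (rev T (q a)) (q a)) w) :=
      JI.cat_left (by positivity) hs (JI.spur hT (hq a)) hw
    rw [cat_assoc hT] at j2
    have j3 : JoinedIn (PF a b (T + (D + s))) (cat T (rev T (q a)) (cat T (q a) w))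
        (cat T (rev T (q a)) (q b)) :=
      JI.cat_right hT (by linarith) (rev_mem (hq a)) (hj a b s hs w hw)
    exact ((j1.mono (PF.mono (by linarith))).trans (j2.mono (PF.mono (by linarith)))).trans
      (j3.mono (PF.mono (by linarith)))
  exact fun a b s hs w hw w' hw' => (key a b s hs w hw).trans (key a b s hs w' hw').symm

end Vale.Agent.P216.H250
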